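import Vale.Agent.P273.H949.QStab
import Vale.Agent.P273.H948.Conv

/-!
A final state without vector fields is a family of stable curves with marked points.
-/

noncomputable section

open Set Filter Topology

namespace Vale.Agent.P273.H949

open H948

variable {m : ℕ} {L : Type}

/-- A proper family with distinct smooth sections and without vector fields is stable. -/
theorem isStable_toFam (F : PFam m) (s : L → (Fin m → ℂ) → F.S.X)
    (hsec : ∀ j, IsSec F.S F.B (s j)) (hsm : ∀ j, ∀ b ∈ F.B, F.S.SmoothAt (s j b))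
    (hinj : ∀ i j, ∀ b ∈ F.B, s i b = s j b → i = j)
    (h : ∀ b ∈ F.B, NoFld F.S b {p | ∃ i, s i b = p}) : (toFam F s).IsStable := by
  refine ⟨F.openB, F.S.t2, F.mem, F.proper, ?_, ?_⟩
  · intro p
    obtain ⟨U, u, v, t, hp, hU⟩ := F.S.model p
    exact ⟨U, u, v, t, hp, hU.isChart⟩
  · intro b hb
    refine ⟨F.conn b hb, fun i => ?_, fun D hD p hp f hf => ?_⟩
    · obtain ⟨h1, h2, h3⟩ := hsec i b hb
      refine ⟨h1, h2, h3, fun j => hinj i j b hb, fun U x y t hU hp => ?_⟩
      exact (hsm i b hb).all hp hU.isModel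
    · exact h b hb D (isField_toFam.1 hD) p hp f hf

/-- **A final state without vector fields is stable.** -/
theorem QStab.isStable {X₀ : Surf m} {Q : L → (Fin m → ℂ) → X₀.X} {σ : State X₀ Q univ}
    (h : QStab σ) : (toFam σ.F σ.s).IsStable := by
  refine isStable_toFam σ.F σ.s σ.sec (fun j => σ.smooth j (mem_univ _))
    (fun i j => σ.inj i (mem_univ _) j (mem_univ _)) fun b hb => (h b hb).mono ?_
  rintro p ⟨i, -, e⟩
  exact ⟨i, e⟩

end Vale.Agent.P273.H949

end
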