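import Vale.Agent.P273.H949.BubInh
import Vale.Agent.P273.H182.BubState

/-!
The move M2 on states preserves the absence of vector fields.
-/

noncomputable section

open Set Filter Topology OnePoint

namespace Vale.Agent.P273.H949

open H948 H469

variable {m : ℕ} {X₀ : Surf m} {L : Type} {Q : L → (Fin m → ℂ) → X₀.X} {A : Set L}

/-- **M2.** -/
theorem QStab.bubState {σ : State X₀ Q A} (h : QStab σ) {i j : L} (N : BubMove σ i j) :
    QStab N.state := by
  intro b hb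
  refine bub_inh (D := N.D) (P := {p | ∃ i ∈ A, σ.s i b = p}) ?_ ?_ ?_ (h b hb)
  · rintro p ⟨k, hk, rfl⟩
    exact ⟨N.s' k b, ⟨k, mem_insert_of_mem _ hk, rfl⟩, N.r_s' k b⟩
  · rintro x hx rfl
    refine ⟨i, mem_insert_of_mem _ N.iA, ?_⟩
    obtain ⟨y, h1, h2, h3⟩ := N.s'_i_mem hb
    change N.s' i _ = _
    rw [h1]
    refine congrArg _ (Subtype.ext (Prod.ext ?_ h3))
    exact h2.trans (N.eq_of_ξ hx.1 hx.2.1).symm
  · rintro x hx rfl
    refine ⟨j, mem_insert _ _, ?_⟩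
    obtain ⟨y, h1, h2, h3⟩ := N.s'_j_mem hb
    change N.s' j _ = _
    rw [h1]
    refine congrArg _ (Subtype.ext (Prod.ext ?_ h3))
    have h4 := N.eq_of_ξ (N.mem_j _ hb) (by rw [N.ξ_j _ hb]; exact hx.2.2)
    rw [(σ.sec j _ hb).1] at h4
    exact (h2.trans h4).trans (N.eq_of_ξ hx.1 hx.2.1).symm

end Vale.Agent.P273.H949

end
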