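import Vale.Agent.P273.H949.QNode
import Vale.Agent.P273.H996.NodeState

/-!
The move M3 on states preserves the absence of vector fields.
-/

noncomputable section

open Set Filter Topology OnePoint

namespace Vale.Agent.P273.H949

open H948 H469

variable {m : ℕ} {X₀ : Surf m} {L : Type} {Q : L → (Fin m → ℂ) → X₀.X} {A : Set L}

/-- **M3.** -/
theorem QStab.nodeState {σ : State X₀ Q A} (h : QStab σ) {j : L} (N : NodeMove σ j) :
    QStab N.state := by
  intro b hb
  refine node_inh (D := N.D) (P := {p | ∃ i ∈ A, σ.s i b = p}) ?_ ?_ (h b hb)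
  · rintro p ⟨k, hk, rfl⟩
    exact ⟨N.s' k b, ⟨k, mem_insert_of_mem _ hk, rfl⟩, N.r_s' k b⟩
  · rintro x hx rfl
    refine ⟨j, mem_insert _ _, ?_⟩
    obtain ⟨y, h1, h2, h3⟩ := N.s'_mem N.jK hb
    change N.s' j _ = _
    rw [h1]
    refine congrArg _ (Subtype.ext (Prod.ext ?_ ?_))
    · exact h2.trans (N.eq_of_Z hx).symm
    · refine h3.trans ?_
      rw [N.α_j]
      rfl

end Vale.Agent.P273.H949

end
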