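import Vale.Agent.P273.H949.Stable
import Vale.Agent.P273.H183.StartStable

/-!
The initial state of the start family has no vector fields.
-/

noncomputable section

open Set Filter Topology

namespace Vale.Agent.P273.H949

open H948

variable {m : ℕ} {B : Set (Fin m → ℂ)} {a : (Fin m → ℂ) → Fin 6 → ℂ}

/-- The curves `y ^ 2 = f(x)` (`f` without triple roots) have no vector fields. -/
theorem start_noFld (hB : IsOpen B) (ha : ∀ b ∈ B, AnalyticAt ℂ a b) (hK : ∀ b ∈ B, a b ∈ H183.K6)
    {b : Fin m → ℂ} (hb : b ∈ B) (P : Set (H183.startP B a hB ha hK).S.X) :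
    NoFld (H183.startP B a hB ha hK).S b P := by
  intro D hD p hp f hf
  have h1 : (H183.start Empty B a).IsField b D := ⟨hD.1, hD.2.1, fun i => i.elim⟩
  exact H724.start_field hK b hb D h1 p hp f hf

/-- **The initial state of the insertion process.** -/
theorem qStab_start {L : Type} (hB : IsOpen B) (ha : ∀ b ∈ B, AnalyticAt ℂ a b)
    (hK : ∀ b ∈ B, a b ∈ H183.K6)
    {P : L → (Fin m → ℂ) → (H183.startP B a hB ha hK).S.X}
    {hP : ∀ j, IsSec (H183.startP B a hB ha hK).S (H183.startP B a hB ha hK).B (P j)} :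
    QStab (State.init (H183.startP B a hB ha hK) P hP) :=
  QStab.init fun _ hb => start_noFld hB ha hK hb _

end Vale.Agent.P273.H949

end
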