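import Vale.Agent.P273.H949.Ins
import Vale.Agent.P273.H469.Node

/-!
The inheritance theorem for the insertion of a mark in a node.
-/

noncomputable section

open Set Filter Topology OnePoint

namespace Vale.Agent.P273.H949

open H948 H469

variable {m : ℕ} {S : Surf m} (D : NodeData S)

/-- The inserted line over a point of the centre. -/
def nodePt {x : S.X} (hx : x ∈ D.Z) (a : OnePoint ℂ) : D.node.X := ⟨(x, a), NodeData.mem_of_Z hx a⟩

theorem fv_mul_iv {a : OnePoint ℂ} (h : a ≠ ∞) (h0 : a ≠ oz) : fv a * iv a = 1 := by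
  rw [iv_eq_inv, mul_inv_cancel₀ (fv_ne_zero h h0)]

variable {D}

theorem node_isLine {x : S.X} (hx : x ∈ D.Z) :
    IsLine D.modif (S.π x) x (nodePt D hx) D.fa D.ia where
  hp := rfl
  mem := hx
  only p hp hpb := D.mod.inj hp.1 hx.1 (by
    simp only [Emap]
    rw [hpb, hp.2.1, hx.2.1, hp.2.2.1, hx.2.2.1])
  cont := (continuous_const.prodMk continuous_id).subtype_mk _
  ρε _ := rfl
  surj z hz := ⟨D.a z, by
    subst hz
    rfl⟩
  holα a := D.model₁.hol_u (y := nodePt D hx a) (H469.coe_ne_infty a)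
  α_ε a := rfl
  holγ a ha := D.model₂.hol_v (y := nodePt D hx a) (coe_ne_oz.2 ha)
  holγ' := D.model₂.hol_v (y := nodePt D hx ∞) (H469.coe_ne_infty 0).symm
  αγ a ha := by
    have h1 : D.a (nodePt D hx a) ≠ ∞ := H469.coe_ne_infty a
    have h2 : D.a (nodePt D hx a) ≠ oz := coe_ne_oz.2 ha
    filter_upwards [NodeData.ev_fin h1, NodeData.ev_inv h2] with z h3 h4
    exact fv_mul_iv h3 h4
  coord a ha := FCoord.of_model (S := D.node) D.model₁ (e := nodePt D hx a) (H469.coe_ne_infty a) rfl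
    hx.2.2.2.2 ha

/-- **Inheritance for M3.** -/
theorem node_inh {b : Fin m → ℂ} {P : Set S.X} {P' : Set D.modif.T.X}
    (hP : ∀ p ∈ P, ∃ p' ∈ P', D.modif.r p' = p)
    (h1 : ∀ x (hx : x ∈ D.Z), S.π x = b → D.modif.ιN (nodePt D hx oo) ∈ P')
    (hNo : NoFld S b P) : NoFld D.modif.T b P' := by
  by_cases hex : ∃ x ∈ D.Z, S.π x = b
  · obtain ⟨x, hx, rfl⟩ := hex
    have hU : ∀ᶠ p in 𝓝[{p | S.π p = S.π x}] x, p ∈ D.U :=
      nhdsWithin_le_nhds (D.mod.isOpen.mem_nhds hx.1)
    have ht : D.t (S.π x) = 0 := by rw [NodeData.fac' hx.1, hx.2.2.2.1, zero_mul]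
    have hi : D.a (nodePt D hx ∞) ≠ oz := (H469.coe_ne_infty 0).symm
    have ho : D.a (nodePt D hx ((0 : ℂ) : OnePoint ℂ)) ≠ ∞ := H469.coe_ne_infty 0
    refine (node_isLine hx).inh_node (u := D.u) (v := D.v) (D.mod.hol_u hx.1) (D.mod.hol_v hx.1)
      hx.2.1 hx.2.2.1 ?_ ?_
      (FNode.of_model (S := D.node) D.model₂ hi rfl hx.2.1 rfl)
      (Eventually.of_forall fun z => rfl) ?_
      (FNode.of_model (S := D.node) D.model₁ ho rfl rfl hx.2.2.1)
      (Eventually.of_forall fun z => rfl) ?_ (h1 x hx rfl) hP hNo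
    · filter_upwards [hU, self_mem_nhdsWithin] with p hp hpb
      rw [D.mod.eqn p hp, show S.π p = S.π x from hpb, ht]
    · refine ⟨_, hU.and self_mem_nhdsWithin, fun p hp q hq h2 h3 => ?_⟩
      refine D.mod.inj hp.1 hq.1 ?_
      simp only [Emap]
      rw [h2, h3, show S.π p = S.π x from hp.2, show S.π q = S.π x from hq.2]
    · filter_upwards [(NodeData.ev_inv hi).filter_mono nhdsWithin_le_nhds, self_mem_nhdsWithin]
        with z hz hzb
      have h4 := ((NodeData.rel z).2 hz).2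
      have h5 : S.π (D.ρ z) = S.π x := hzb
      rw [h5, hx.2.2.2.2, zero_mul] at h4
      exact h4
    · filter_upwards [(NodeData.ev_fin ho).filter_mono nhdsWithin_le_nhds, self_mem_nhdsWithin]
        with z hz hzb
      have h4 := ((NodeData.rel z).1 hz).1
      have h5 : S.π (D.ρ z) = S.π x := hzb
      rw [h5, hx.2.2.2.1, zero_mul] at h4
      exact h4
  · refine inh_free _ (fun p hp hpb => hex ⟨p, hp, hpb⟩) hP hNo

end Vale.Agent.P273.H949

end
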