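import Vale.Agent.P273.H949.QStab
import Vale.Agent.P273.H949.NodeInh

/-!
The move M3 preserves the absence of vector fields.
-/

noncomputable section

open Set Filter Topology OnePoint

namespace Vale.Agent.P273.H949

open H948 H469

variable {m : ℕ} {X₀ : Surf m} {L : Type} {Q : L → (Fin m → ℂ) → X₀.X} {A : Set L}

/-- A general modification. -/
theorem QStab.mod {σ : State X₀ Q A} (h : QStab σ) {N' : Surf m} (M : Modif σ.F.S N')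
    (hF : M.Fib) (s' : L → (Fin m → ℂ) → M.T.X) (hsec : ∀ j, IsSec M.T σ.F.B (s' j))
    (hrs : ∀ j, ∀ b ∈ σ.F.B, M.r (s' j b) = σ.s j b) (A' : Set L)
    (hsm : ∀ j ∈ A', ∀ b ∈ σ.F.B, M.T.SmoothAt (s' j b))
    (hinj : ∀ i ∈ A', ∀ j ∈ A', ∀ b ∈ σ.F.B, s' i b = s' j b → i = j)
    (hZ : ∀ x ∈ M.Z, (∀ j, X₀.SmoothAt (Q j (σ.F.S.π x))) →
      ¬ ∀ i j, Q i (σ.F.S.π x) = Q j (σ.F.S.π x) → i = j)
    (hst : ∀ b ∈ σ.F.B, NoFld σ.F.S b {p | ∃ i ∈ A, σ.s i b = p} →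
      NoFld M.T b {p | ∃ i ∈ A', s' i b = p}) :
    QStab (σ.mod M hF s' hsec hrs A' hsm hinj hZ) := fun b hb => hst b hb (h b hb)

/-- The move M3: `j` is the new mark. -/
theorem QStab.node {σ : State X₀ Q A} (h : QStab σ) (D : NodeData σ.F.S)
    (hF : D.modif.Fib) (s' : L → (Fin m → ℂ) → D.modif.T.X)
    (hsec : ∀ j, IsSec D.modif.T σ.F.B (s' j))
    (hrs : ∀ j, ∀ b ∈ σ.F.B, D.modif.r (s' j b) = σ.s j b) (A' : Set L)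
    (hsm : ∀ j ∈ A', ∀ b ∈ σ.F.B, D.modif.T.SmoothAt (s' j b))
    (hinj : ∀ i ∈ A', ∀ j ∈ A', ∀ b ∈ σ.F.B, s' i b = s' j b → i = j)
    (hZ : ∀ x ∈ D.modif.Z, (∀ j, X₀.SmoothAt (Q j (σ.F.S.π x))) →
      ¬ ∀ i j, Q i (σ.F.S.π x) = Q j (σ.F.S.π x) → i = j) (hA : A ⊆ A') {j : L} (hj : j ∈ A')
    (h1 : ∀ x (hx : x ∈ D.Z), s' j (σ.F.S.π x) = D.modif.ιN (nodePt D hx oo)) :
    QStab (σ.mod D.modif hF s' hsec hrs A' hsm hinj hZ) := by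
  refine h.mod D.modif hF s' hsec hrs A' hsm hinj hZ fun b hb hNo => node_inh ?_ ?_ hNo
  · rintro p ⟨i, hi, rfl⟩
    exact ⟨s' i b, ⟨i, hA hi, rfl⟩, hrs i b hb⟩
  · rintro x hx rfl
    exact ⟨j, hj, h1 x hx⟩

end Vale.Agent.P273.H949

end
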