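import Vale.Agent.P273.H949.QNode
import Vale.Agent.P273.H469.Bub

/-!
The inheritance theorem for the insertion of a mark near a mark.
-/

noncomputable section

open Set Filter Topology OnePoint

namespace Vale.Agent.P273.H949

open H948 H469

section

variable {m : ℕ} {S : Surf m} (D : BubData S)

/-- The inserted line over a point of the centre. -/
def bubPt {x : S.X} (hx : x ∈ D.Z) (a : OnePoint ℂ) : D.bub.X := ⟨(x, a), BubData.mem_of_Z hx a⟩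

variable {D}

theorem bub_isLine {x : S.X} (hx : x ∈ D.Z) :
    IsLine D.modif (S.π x) x (bubPt D hx) D.fa D.ia where
  hp := rfl
  mem := hx
  only p hp hpb := D.co.inj hp.1 hx.1 (by
    simp only
    rw [hpb, hp.2.1, hx.2.1])
  cont := (continuous_const.prodMk continuous_id).subtype_mk _
  ρε _ := rfl
  surj z hz := ⟨D.a z, by
    subst hz
    rfl⟩
  holα a := D.coord₁.hol_ξ (y := bubPt D hx a) (H469.coe_ne_infty a)
  α_ε a := rfl
  holγ a ha := D.model₂.hol_v (y := bubPt D hx a) (coe_ne_oz.2 ha)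
  holγ' := D.model₂.hol_v (y := bubPt D hx ∞) (H469.coe_ne_infty 0).symm
  αγ a ha := by
    have h1 : D.a (bubPt D hx a) ≠ ∞ := H469.coe_ne_infty a
    have h2 : D.a (bubPt D hx a) ≠ oz := coe_ne_oz.2 ha
    filter_upwards [BubData.ev_fin h1, BubData.ev_inv h2] with z h3 h4
    exact fv_mul_iv h3 h4
  coord a ha := by
    have h1 : D.a (bubPt D hx a) ≠ ∞ := H469.coe_ne_infty a
    have h2 : D.a (bubPt D hx a) ≠ oz := coe_ne_oz.2 ha
    refine (FCoord.of_model' (S := D.bub) D.model₂ (e := bubPt D hx a) h2 rfl hx.2.2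
      (iv_ne_zero h1 h2)).inv (D.coord₁.hol_ξ (y := bubPt D hx a) h1) ?_
    filter_upwards [BubData.ev_fin h1, BubData.ev_inv h2] with z h3 h4
    exact fv_mul_iv h3 h4

/-- **Inheritance for M2.** -/
theorem bub_inh {b : Fin m → ℂ} {P : Set S.X} {P' : Set D.modif.T.X}
    (hP : ∀ p ∈ P, ∃ p' ∈ P', D.modif.r p' = p)
    (h0 : ∀ x (hx : x ∈ D.Z), S.π x = b → D.modif.ιN (bubPt D hx oz) ∈ P')
    (h1 : ∀ x (hx : x ∈ D.Z), S.π x = b → D.modif.ιN (bubPt D hx oo) ∈ P')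
    (hNo : NoFld S b P) : NoFld D.modif.T b P' := by
  by_cases hex : ∃ x ∈ D.Z, S.π x = b
  · obtain ⟨x, hx, rfl⟩ := hex
    have hU : ∀ᶠ p in 𝓝[{p | S.π p = S.π x}] x, p ∈ D.U :=
      nhdsWithin_le_nhds (D.co.isOpen.mem_nhds hx.1)
    have hi : D.a (bubPt D hx ∞) ≠ oz := (H469.coe_ne_infty 0).symm
    refine (bub_isLine hx).inh_mark (u := D.ξ) (D.co.hol_ξ hx.1) hx.2.1 ?_
      (FNode.of_model (S := D.bub) D.model₂ hi rfl hx.2.1 rfl)
      (Eventually.of_forall fun z => rfl) (h0 x hx rfl) (h1 x hx rfl) hP hNo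
    refine ⟨_, hU.and self_mem_nhdsWithin, fun p hp q hq h2 => ?_⟩
    refine D.co.inj hp.1 hq.1 ?_
    simp only
    rw [h2, show S.π p = S.π x from hp.2, show S.π q = S.π x from hq.2]
  · exact inh_free _ (fun p hp hpb => hex ⟨p, hp, hpb⟩) hP hNo

end

variable {m : ℕ} {X₀ : Surf m} {L : Type} {Q : L → (Fin m → ℂ) → X₀.X} {A : Set L}

/-- The move M2: `i` is the old mark, `j` the new one. -/
theorem QStab.bub {σ : State X₀ Q A} (h : QStab σ) (D : BubData σ.F.S)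
    (hF : D.modif.Fib) (s' : L → (Fin m → ℂ) → D.modif.T.X)
    (hsec : ∀ j, IsSec D.modif.T σ.F.B (s' j))
    (hrs : ∀ j, ∀ b ∈ σ.F.B, D.modif.r (s' j b) = σ.s j b) (A' : Set L)
    (hsm : ∀ j ∈ A', ∀ b ∈ σ.F.B, D.modif.T.SmoothAt (s' j b))
    (hinj : ∀ i ∈ A', ∀ j ∈ A', ∀ b ∈ σ.F.B, s' i b = s' j b → i = j)
    (hZ : ∀ x ∈ D.modif.Z, (∀ j, X₀.SmoothAt (Q j (σ.F.S.π x))) →
      ¬ ∀ i j, Q i (σ.F.S.π x) = Q j (σ.F.S.π x) → i = j) (hA : A ⊆ A') {i j : L}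
    (hi : i ∈ A') (hj : j ∈ A')
    (h0 : ∀ x (hx : x ∈ D.Z), s' i (σ.F.S.π x) = D.modif.ιN (bubPt D hx oz))
    (h1 : ∀ x (hx : x ∈ D.Z), s' j (σ.F.S.π x) = D.modif.ιN (bubPt D hx oo)) :
    QStab (σ.mod D.modif hF s' hsec hrs A' hsm hinj hZ) := by
  refine h.mod D.modif hF s' hsec hrs A' hsm hinj hZ fun b hb hNo => bub_inh ?_ ?_ ?_ hNo
  · rintro p ⟨k, hk, rfl⟩
    exact ⟨s' k b, ⟨k, hA hk, rfl⟩, hrs k b hb⟩
  · rintro x hx rfl
    exact ⟨i, hi, h0 x hx⟩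
  · rintro x hx rfl
    exact ⟨j, hj, h1 x hx⟩

end Vale.Agent.P273.H949

end
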