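import Vale.Agent.P273.H949.Fld
import Vale.Agent.P273.H599.Liou

/-!
Vector fields near an inserted projective line.
-/

noncomputable section

open Set Filter Topology

namespace Vale.Agent.P273.H949

open H948

variable {m : ℕ}

/-- The fibre coordinate at a smooth point of a local model with `t b = 0`. -/
theorem FCoord.of_model {S : Surf m} {b : Fin m → ℂ} {U : Set S.X} {x y : S.X → ℂ}
    {t : (Fin m → ℂ) → ℂ} (h : IsModel S.π S.hol U x y t) {e : S.X} (he : e ∈ U)
    (hb : S.π e = b) (ht : t b = 0) (hx : x e ≠ 0) : FCoord S b e x := by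
  have hy : y e = 0 := by
    have := h.eqn e he
    rw [hb, ht] at this
    exact (mul_eq_zero.1 this).resolve_left hx
  have hE : Emap S.π x y e = (b, x e, 0) := by rw [Emap, hb, hy]
  refine ⟨h.hol_u he, fun g hg => ?_⟩
  obtain ⟨F, hF, eF⟩ := (h.hol e he g).1 hg
  rw [hE] at hF
  have hi1 : AnalyticAt ℂ (fun s : ℂ => ((b, s, 0) : Amb m)) (x e) :=
    analyticAt_const.prod (analyticAt_id.prod analyticAt_const)
  refine ⟨fun s => F (b, s, 0), AnalyticAt.fun_comp (g := F) hF hi1, ?_⟩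
  refine eventually_nhdsWithin_iff.2 ?_
  filter_upwards [eF, h.isOpen.mem_nhds he, (h.cont_u he).eventually_ne hx] with z hz hzU hzx hzb
  have hzy : y z = 0 := by
    have := h.eqn z hzU
    rw [show S.π z = b from hzb, ht] at this
    exact (mul_eq_zero.1 this).resolve_left hzx
  rw [hz, Function.comp_apply, Function.comp_apply, Emap, show S.π z = b from hzb, hzy]

/-- The other coordinate. -/
theorem FCoord.of_model' {S : Surf m} {b : Fin m → ℂ} {U : Set S.X} {x y : S.X → ℂ}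
    {t : (Fin m → ℂ) → ℂ} (h : IsModel S.π S.hol U x y t) {e : S.X} (he : e ∈ U)
    (hb : S.π e = b) (ht : t b = 0) (hy : y e ≠ 0) : FCoord S b e y := by
  have hx : x e = 0 := by
    have := h.eqn e he
    rw [hb, ht] at this
    exact (mul_eq_zero.1 this).resolve_right hy
  have hE : Emap S.π x y e = (b, 0, y e) := by rw [Emap, hb, hx]
  refine ⟨h.hol_v he, fun g hg => ?_⟩
  obtain ⟨F, hF, eF⟩ := (h.hol e he g).1 hg
  rw [hE] at hF
  have hi1 : AnalyticAt ℂ (fun s : ℂ => ((b, 0, s) : Amb m)) (y e) :=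
    analyticAt_const.prod (analyticAt_const.prod analyticAt_id)
  refine ⟨fun s => F (b, 0, s), AnalyticAt.fun_comp (g := F) hF hi1, ?_⟩
  refine eventually_nhdsWithin_iff.2 ?_
  filter_upwards [eF, h.isOpen.mem_nhds he, (h.cont_v he).eventually_ne hy] with z hz hzU hzy hzb
  have hzx : x z = 0 := by
    have := h.eqn z hzU
    rw [show S.π z = b from hzb, ht] at this
    exact (mul_eq_zero.1 this).resolve_right hzy
  rw [hz, Function.comp_apply, Function.comp_apply, Emap, show S.π z = b from hzb, hzx]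

/-- The inverse of a coordinate. -/
theorem FCoord.inv {S : Surf m} {b : Fin m → ℂ} {e : S.X} {α γ : S.X → ℂ}
    (h : FCoord S b e γ) (hα : S.hol e α) (hm : ∀ᶠ z in 𝓝 e, α z * γ z = 1) :
    FCoord S b e α := by
  have h0 : α e ≠ 0 := left_ne_zero_of_mul_eq_one hm.self_of_nhds
  have h1 : γ e = (α e)⁻¹ := eq_inv_of_mul_eq_one_right hm.self_of_nhds
  refine ⟨hα, fun g hg => ?_⟩
  obtain ⟨G, hG, eG⟩ := h.rep g hg
  rw [h1] at hG
  refine ⟨G ∘ fun s => s⁻¹, hG.comp (analyticAt_inv h0), ?_⟩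
  filter_upwards [eG, hm.filter_mono nhdsWithin_le_nhds] with z hz hz'
  rw [hz, Function.comp_apply, Function.comp_apply, Function.comp_apply,
    eq_inv_of_mul_eq_one_right hz']

/-- **A field on an inserted line with three zeros vanishes.** -/
theorem bubble {S : Surf m} {b : Fin m → ℂ} {P : Set S.X} {D : (S.X → ℂ) → S.X → ℂ}
    (hD : IsFld S b P D) {ε : OnePoint ℂ → S.X} (hε : Continuous ε) (hb : ∀ a, S.π (ε a) = b)
    {α γ : S.X → ℂ} (hα : ∀ a : ℂ, S.hol (ε a) α) (hα' : ∀ a : ℂ, α (ε a) = a)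
    (hγ : ∀ a : ℂ, a ≠ 0 → S.hol (ε a) γ) (hγ' : S.hol (ε OnePoint.infty) γ)
    (hαγ : ∀ a : ℂ, a ≠ 0 → ∀ᶠ z in 𝓝 (ε a), α z * γ z = 1)
    (hc : ∀ a : ℂ, a ≠ 0 → FCoord S b (ε a) α)
    (h0 : D α (ε (0 : ℂ)) = 0) (h1 : D α (ε (1 : ℂ)) = 0) (hi : D γ (ε OnePoint.infty) = 0) :
    ∀ a : ℂ, a ≠ 0 → ∀ f, S.hol (ε a) f → D f (ε a) = 0 := by
  have hcoe : ∀ a : ℂ, Tendsto (fun z : ℂ => ε (z : OnePoint ℂ)) (𝓝 a)
      (𝓝[{p | S.π p = b}] (ε a)) := fun a =>
    tendsto_nhdsWithin_iff.2 ⟨(hε.comp OnePoint.continuous_coe).tendsto a,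
      Eventually.of_forall fun z => hb z⟩
  have hcoi : Tendsto (fun z : ℂ => ε (z : OnePoint ℂ)) (cocompact ℂ)
      (𝓝[{p | S.π p = b}] (ε OnePoint.infty)) := by
    refine tendsto_nhdsWithin_iff.2 ⟨?_, Eventually.of_forall fun z => hb z⟩
    have h := OnePoint.tendsto_coe_infty (X := ℂ)
    rw [coclosedCompact_eq_cocompact] at h
    exact (hε.tendsto _).comp h
  have hrel : ∀ a : ℂ, a ≠ 0 → D α (ε a) / a ^ 2 = -D γ (ε a) := by
    intro a ha
    have h2 := hD.mul (hb a) (hα a) (hγ a ha)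
    have h3 : D (α * γ) (ε a) = 0 :=
      hD.const (hb a) (hol_mul (hα a) (hγ a ha)) (c := 1)
        ((hαγ a ha).filter_mono nhdsWithin_le_nhds)
    have h4 : α (ε a) * γ (ε a) = 1 := (hαγ a ha).self_of_nhds
    rw [hα'] at h4
    have h5 : γ (ε a) = a⁻¹ := eq_inv_of_mul_eq_one_right h4
    rw [h3, hα', h5] at h2
    have h6 : D γ (ε a) = -(a⁻¹ * D α (ε a)) / a := by
      rw [eq_div_iff ha]; linear_combination -h2
    rw [h6]
    field_simp
  have hzi : Tendsto (fun z : ℂ => D α (ε z) / z ^ 2) (cocompact ℂ) (𝓝 0) := by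
    have h2 := ((hD.cont (hb _) hγ').comp hcoi).neg
    rw [hi, neg_zero] at h2
    refine h2.congr' ?_
    filter_upwards [(isCompact_singleton (x := (0 : ℂ))).compl_mem_cocompact] with z hz
    exact (hrel z hz).symm
  have ht : ∀ a : ℂ, D α (ε a) = 0 → Tendsto (fun z : ℂ => D α (ε z)) (𝓝 a) (𝓝 0) := by
    intro a ha
    have h2 := (hD.cont (hb _) (hα a)).comp (hcoe a)
    rw [ha] at h2
    exact h2
  have hzero : ∀ a ∉ ({0} : Set ℂ), D α (ε a) = 0 := by
    refine H599.p1_zero (d := fun a : ℂ => D α (ε a)) (finite_singleton (0 : ℂ)) (C := 1) ?_ ?_ ?_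
      ![((0 : ℂ) : OnePoint ℂ), ((1 : ℂ) : OnePoint ℂ), OnePoint.infty] ?_ ?_
    · intro a ha
      obtain ⟨h, hh, eh⟩ := hD.rep (hb a) (hα a)
      obtain ⟨G, hG, eG⟩ := (hc a ha).rep h hh
      rw [hα'] at hG
      refine (hG.differentiableAt.congr_of_eventuallyEq ?_).differentiableWithinAt
      filter_upwards [(hcoe a).eventually eh, (hcoe a).eventually eG] with z h2 h3
      rw [h2, h3, Function.comp_apply, hα']
    · rintro s rfl
      refine ⟨1, ?_⟩
      have h2 := (ht 0 h0).norm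
      rw [norm_zero] at h2
      exact ((h2.eventually_lt_const one_pos).filter_mono nhdsWithin_le_nhds).mono
        fun z hz => hz.le
    · have h2 := hzi.norm
      rw [norm_zero] at h2
      exact (h2.eventually_lt_const one_pos).mono fun z hz => hz.le
    · intro i j hij
      fin_cases i <;> fin_cases j <;> simp at hij ⊢
    · intro i
      fin_cases i
      · exact (ht 0 h0).mono_left nhdsWithin_le_nhds
      · exact (ht 1 h1).mono_left nhdsWithin_le_nhds
      · exact hzi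
  intro a ha f hf
  exact hD.coord (hb a) (hc a ha) (hzero a ha) hf

end Vale.Agent.P273.H949

end
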