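import Vale.Agent.P273.H948.Surgery
import Vale.Agent.P273.H183.Fam

/-!
Holomorphic vector fields on a fibre of a nodal surface.
-/

noncomputable section

open Set Filter Topology

namespace Vale.Agent.P273.H949

open H948

variable {m : ℕ}

/-- `D` is a holomorphic vector field on the fibre over `b` that vanishes at the points of `P`. -/
def IsFld (S : Surf m) (b : Fin m → ℂ) (P : Set S.X) (D : (S.X → ℂ) → S.X → ℂ) : Prop :=
  (∀ p, S.π p = b → ∀ f g, S.hol p f → S.hol p g →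
    D (f + g) p = D f p + D g p ∧ D (f * g) p = f p * D g p + g p * D f p ∧
    (f =ᶠ[𝓝[{p | S.π p = b}] p] g → D f p = D g p) ∧
    ∃ h, S.hol p h ∧ D f =ᶠ[𝓝[{p | S.π p = b}] p] h) ∧
  (∀ p, S.π p = b → ∀ c : ℂ, D (fun _ => c) p = 0) ∧
  ∀ p ∈ P, ∀ f, S.hol p f → D f p = 0

/-- The fibre over `b` has no holomorphic vector field that vanishes at the points of `P`. -/
def NoFld (S : Surf m) (b : Fin m → ℂ) (P : Set S.X) : Prop :=
  ∀ D, IsFld S b P D → ∀ p, S.π p = b → ∀ f, S.hol p f → D f p = 0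

section hol

variable {S : Surf m} {p : S.X}

theorem hol_const (c : ℂ) : S.hol p fun _ => c := by
  obtain ⟨U, u, v, t, hx, h⟩ := S.model p
  exact (h.hol p hx _).2 ⟨fun _ => c, analyticAt_const, EventuallyEq.rfl⟩

theorem hol_add {f g : S.X → ℂ} (hf : S.hol p f) (hg : S.hol p g) : S.hol p (f + g) := by
  obtain ⟨U, u, v, t, hx, h⟩ := S.model p
  obtain ⟨F, hF, eF⟩ := (h.hol p hx _).1 hf
  obtain ⟨G, hG, eG⟩ := (h.hol p hx _).1 hg
  exact (h.hol p hx _).2 ⟨F + G, hF.add hG, eF.add eG⟩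

theorem hol_mul {f g : S.X → ℂ} (hf : S.hol p f) (hg : S.hol p g) : S.hol p (f * g) := by
  obtain ⟨U, u, v, t, hx, h⟩ := S.model p
  obtain ⟨F, hF, eF⟩ := (h.hol p hx _).1 hf
  obtain ⟨G, hG, eG⟩ := (h.hol p hx _).1 hg
  exact (h.hol p hx _).2 ⟨F * G, hF.mul hG, eF.mul eG⟩

theorem hol_cont {f : S.X → ℂ} (hf : S.hol p f) : ContinuousAt f p := by
  obtain ⟨U, u, v, t, hx, h⟩ := S.model p
  obtain ⟨F, hF, eF⟩ := (h.hol p hx _).1 hf
  exact (ContinuousAt.comp hF.continuousAt (h.cont hx)).congr eF.symm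

theorem hol_comp {f : S.X → ℂ} (hf : S.hol p f) {G : ℂ → ℂ} (hG : AnalyticAt ℂ G (f p)) :
    S.hol p (G ∘ f) := by
  obtain ⟨U, u, v, t, hx, h⟩ := S.model p
  obtain ⟨F, hF, eF⟩ := (h.hol p hx _).1 hf
  refine (h.hol p hx _).2 ⟨G ∘ F, ?_, eF.fun_comp G⟩
  have e : f p = F (Emap S.π u v p) := eF.eq_of_nhds
  rw [e] at hG
  exact hG.comp hF

end hol

/-- `ξ` is a coordinate of the fibre over `b` at `p`. -/
structure FCoord (S : Surf m) (b : Fin m → ℂ) (p : S.X) (ξ : S.X → ℂ) : Prop where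
  hol : S.hol p ξ
  rep : ∀ g, S.hol p g → ∃ G : ℂ → ℂ, AnalyticAt ℂ G (ξ p) ∧
    g =ᶠ[𝓝[{p | S.π p = b}] p] G ∘ ξ

/-- Hadamard's lemma. -/
theorem hadamard {G : ℂ → ℂ} {a : ℂ} (hG : AnalyticAt ℂ G a) :
    ∃ H : ℂ → ℂ, AnalyticAt ℂ H a ∧ ∀ z, G z = G a + (z - a) * H z := by
  refine ⟨dslope G a, ?_, fun z => ?_⟩
  · obtain ⟨s, hs, hd⟩ := hG.eventually_analyticAt.exists_mem
    have h1 : DifferentiableOn ℂ G s := fun z hz => (hd z hz).differentiableAt.differentiableWithinAt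
    exact ((Complex.differentiableOn_dslope hs).2 h1).analyticAt hs
  · have := sub_smul_dslope G a z
    rw [smul_eq_mul] at this
    rw [this]; ring

section fld

variable {S : Surf m} {b : Fin m → ℂ} {P : Set S.X} {D : (S.X → ℂ) → S.X → ℂ}

theorem IsFld.add (hD : IsFld S b P D) {p : S.X} (hp : S.π p = b) {f g : S.X → ℂ}
    (hf : S.hol p f) (hg : S.hol p g) : D (f + g) p = D f p + D g p := (hD.1 p hp f g hf hg).1

theorem IsFld.mul (hD : IsFld S b P D) {p : S.X} (hp : S.π p = b) {f g : S.X → ℂ}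
    (hf : S.hol p f) (hg : S.hol p g) : D (f * g) p = f p * D g p + g p * D f p :=
  (hD.1 p hp f g hf hg).2.1

theorem IsFld.congr (hD : IsFld S b P D) {p : S.X} (hp : S.π p = b) {f g : S.X → ℂ}
    (hf : S.hol p f) (hg : S.hol p g) (e : f =ᶠ[𝓝[{p | S.π p = b}] p] g) : D f p = D g p :=
  (hD.1 p hp f g hf hg).2.2.1 e

theorem IsFld.rep (hD : IsFld S b P D) {p : S.X} (hp : S.π p = b) {f : S.X → ℂ}
    (hf : S.hol p f) : ∃ h, S.hol p h ∧ D f =ᶠ[𝓝[{p | S.π p = b}] p] h :=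
  (hD.1 p hp f f hf hf).2.2.2

/-- The values of a field are continuous along the fibre. -/
theorem IsFld.cont (hD : IsFld S b P D) {p : S.X} (hp : S.π p = b) {f : S.X → ℂ}
    (hf : S.hol p f) : Tendsto (D f) (𝓝[{p | S.π p = b}] p) (𝓝 (D f p)) := by
  obtain ⟨h, hh, e⟩ := hD.rep hp hf
  have e1 : D f p = h p := e.eq_of_nhdsWithin hp
  rw [e1]
  exact ((hol_cont hh).tendsto.mono_left nhdsWithin_le_nhds).congr' e.symm

/-- A field vanishes on functions that are constant on the fibre. -/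
theorem IsFld.const (hD : IsFld S b P D) {p : S.X} (hp : S.π p = b) {f : S.X → ℂ}
    (hf : S.hol p f) {c : ℂ} (e : ∀ᶠ z in 𝓝[{p | S.π p = b}] p, f z = c) : D f p = 0 := by
  rw [hD.congr hp hf (hol_const c) e]
  exact hD.2.1 p hp c

/-- The product rule for `c + (f - f p) g`. -/
theorem IsFld.prod (hD : IsFld S b P D) {p : S.X} (hp : S.π p = b) {f g k : S.X → ℂ} {c : ℂ}
    (hf : S.hol p f) (hg : S.hol p g) (hk : S.hol p k)
    (e : ∀ᶠ z in 𝓝[{p | S.π p = b}] p, k z = c + (f z - f p) * g z) :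
    D k p = g p * D f p := by
  have h1 : S.hol p (fun _ => c) := hol_const c
  have h2 : S.hol p (fun _ => -f p) := hol_const _
  have h3 : S.hol p (f + fun _ => -f p) := hol_add hf h2
  have h4 : S.hol p ((f + fun _ => -f p) * g) := hol_mul h3 hg
  have h5 : S.hol p ((fun _ => c) + (f + fun _ => -f p) * g) := hol_add h1 h4
  have h6 : k =ᶠ[𝓝[{p | S.π p = b}] p] ((fun _ => c) + (f + fun _ => -f p) * g) := by
    filter_upwards [e] with z hz
    simp only [Pi.add_apply, Pi.mul_apply]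
    rw [hz]; ring
  rw [hD.congr hp hk h5 h6, hD.add hp h1 h4, hD.2.1 p hp, hD.mul hp h3 hg, hD.add hp hf h2,
    hD.2.1 p hp]
  simp only [Pi.add_apply]
  ring

/-- The chain rule at a smooth point. -/
theorem IsFld.coord (hD : IsFld S b P D) {p : S.X} (hp : S.π p = b) {ξ : S.X → ℂ}
    (hξ : FCoord S b p ξ) (h0 : D ξ p = 0) {f : S.X → ℂ} (hf : S.hol p f) : D f p = 0 := by
  obtain ⟨G, hG, eG⟩ := hξ.rep f hf
  obtain ⟨H, hH, eH⟩ := hadamard hG
  rw [hD.prod hp hξ.hol (hol_comp hξ.hol hH) hf (c := G (ξ p)), h0, mul_zero]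
  filter_upwards [eG] with z hz
  rw [hz, Function.comp_apply, Function.comp_apply]
  exact eH _

end fld

/-- `(x, y)` are coordinates of the fibre over `b` at the node `e`. -/
structure FNode (S : Surf m) (b : Fin m → ℂ) (e : S.X) (x y : S.X → ℂ) : Prop where
  holx : S.hol e x
  holy : S.hol e y
  x0 : x e = 0
  y0 : y e = 0
  xy : ∀ᶠ z in 𝓝[{p | S.π p = b}] e, x z * y z = 0
  rep : ∀ g, S.hol e g → ∃ G H : ℂ → ℂ, AnalyticAt ℂ G 0 ∧ AnalyticAt ℂ H 0 ∧
    g =ᶠ[𝓝[{p | S.π p = b}] e] fun z => g e + (x z * G (x z) + y z * H (y z))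
  /-- all small points of the first branch -/
  bx : ∀ V ∈ 𝓝[{p | S.π p = b}] e, ∀ᶠ s in 𝓝 (0 : ℂ), ∃ z ∈ V, x z = s ∧ y z = 0
  /-- all small points of the second branch -/
  by' : ∀ V ∈ 𝓝[{p | S.π p = b}] e, ∀ᶠ s in 𝓝 (0 : ℂ), ∃ z ∈ V, x z = 0 ∧ y z = s

theorem FNode.symm {S : Surf m} {b : Fin m → ℂ} {e : S.X} {x y : S.X → ℂ}
    (h : FNode S b e x y) : FNode S b e y x where
  holx := h.holy
  holy := h.holx
  x0 := h.y0
  y0 := h.x0
  xy := h.xy.mono fun z hz => by rw [mul_comm]; exact hz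
  rep g hg := by
    obtain ⟨G, H, hG, hH, e⟩ := h.rep g hg
    exact ⟨H, G, hH, hG, e.mono fun z hz => by simp only [hz]; ring⟩
  bx V hV := (h.by' V hV).mono fun s ⟨z, hz, h1, h2⟩ => ⟨z, hz, h2, h1⟩
  by' V hV := (h.bx V hV).mono fun s ⟨z, hz, h1, h2⟩ => ⟨z, hz, h2, h1⟩

section node

variable {S : Surf m} {b : Fin m → ℂ} {P : Set S.X} {D : (S.X → ℂ) → S.X → ℂ}

/-- A function with zeros on the branch `x = 0`, `y ≠ 0` vanishes at the node. -/
theorem FNode.zero {e : S.X} {x y : S.X → ℂ} (h : FNode S b e x y) {k : S.X → ℂ}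
    (hk : Tendsto k (𝓝[{p | S.π p = b}] e) (𝓝 (k e)))
    (h0 : ∀ᶠ z in 𝓝[{p | S.π p = b}] e, y z ≠ 0 → k z = 0) : k e = 0 := by
  by_contra hne
  have h1 : ∀ᶠ z in 𝓝[{p | S.π p = b}] e, k z ≠ 0 := hk.eventually_ne hne
  have h2 := h.by' _ (h0.and h1)
  have h3 : ∀ᶠ s in 𝓝[≠] (0 : ℂ), False := by
    filter_upwards [h2.filter_mono nhdsWithin_le_nhds, self_mem_nhdsWithin] with s hs hs'
    obtain ⟨z, ⟨hz1, hz2⟩, -, hz3⟩ := hs
    exact hz2 (hz1 (by rw [hz3]; exact hs'))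
  exact h3.exists.elim fun _ h => h

/-- A field preserves the branches. -/
theorem IsFld.node_x (hD : IsFld S b P D) {e : S.X} (he : S.π e = b) {x y : S.X → ℂ}
    (h : FNode S b e x y) : D x e = 0 := by
  refine h.zero (hD.cont he h.holx) ?_
  have hx : ∀ᶠ z in 𝓝 e, S.hol z x := by
    obtain ⟨U, u, v, t, hxU, hU⟩ := S.model e
    obtain ⟨F, hF, eF⟩ := (hU.hol e hxU _).1 h.holx
    have h1 : ∀ᶠ z in 𝓝 e, AnalyticAt ℂ F (Emap S.π u v z) :=
      (hU.cont hxU).eventually hF.eventually_analyticAt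
    filter_upwards [h1, eF.eventuallyEq_nhds, hU.isOpen.mem_nhds hxU] with z h2 h3 h4
    exact (hU.hol z h4 _).2 ⟨F, h2, h3⟩
  have hyc : ∀ᶠ z in 𝓝 e, ContinuousAt y z := by
    obtain ⟨U, u, v, t, hxU, hU⟩ := S.model e
    obtain ⟨F, hF, eF⟩ := (hU.hol e hxU _).1 h.holy
    have h1 : ∀ᶠ z in 𝓝 e, AnalyticAt ℂ F (Emap S.π u v z) :=
      (hU.cont hxU).eventually hF.eventually_analyticAt
    filter_upwards [h1, eF.eventuallyEq_nhds, hU.isOpen.mem_nhds hxU] with z h2 h3 h4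
    exact hol_cont ((hU.hol z h4 _).2 ⟨F, h2, h3⟩)
  have hxy := eventually_nhdsWithin_iff.1 h.xy
  rw [eventually_nhdsWithin_iff]
  filter_upwards [hx, hyc, hxy.eventually_nhds] with z h1 h2 h3 hzb hy
  refine hD.const hzb h1 (c := 0) ?_
  rw [eventually_nhdsWithin_iff]
  filter_upwards [h2.eventually_ne hy, h3] with w hw hw' hwb
  exact (mul_eq_zero.1 (hw' hwb)).resolve_right hw

/-- A field vanishes at the nodes. -/
theorem IsFld.node (hD : IsFld S b P D) {e : S.X} (he : S.π e = b) {x y : S.X → ℂ}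
    (h : FNode S b e x y) {f : S.X → ℂ} (hf : S.hol e f) : D f e = 0 := by
  obtain ⟨G, H, hG, hH, eGH⟩ := h.rep f hf
  have hGx : S.hol e (G ∘ x) := hol_comp h.holx (by rw [h.x0]; exact hG)
  have hHy : S.hol e (H ∘ y) := hol_comp h.holy (by rw [h.y0]; exact hH)
  have h1 : S.hol e (x * (G ∘ x)) := hol_mul h.holx hGx
  have h2 : S.hol e (y * (H ∘ y)) := hol_mul h.holy hHy
  have h3 : S.hol e ((fun _ => f e) + (x * (G ∘ x) + y * (H ∘ y))) :=
    hol_add (hol_const _) (hol_add h1 h2)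
  rw [hD.congr he hf h3 eGH, hD.add he (hol_const _) (hol_add h1 h2), hD.2.1 e he,
    hD.add he h1 h2, hD.mul he h.holx hGx, hD.mul he h.holy hHy, hD.node_x he h,
    hD.node_x he h.symm, h.x0, h.y0]
  ring

end node

/-! ### Coordinates from local models -/

/-- The slice of a local model with `t b = 0`. -/
theorem FNode.of_model {S : Surf m} {b : Fin m → ℂ} {U : Set S.X} {x y : S.X → ℂ}
    {t : (Fin m → ℂ) → ℂ} (h : IsModel S.π S.hol U x y t) {e : S.X} (he : e ∈ U)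
    (hb : S.π e = b) (hx : x e = 0) (hy : y e = 0) : FNode S b e x y := by
  have ht : t b = 0 := by rw [← hb, ← h.eqn e he, hx, zero_mul]
  have hE : Emap S.π x y e = (b, 0, 0) := by rw [Emap, hb, hx, hy]
  have hmem : ∀ V ∈ 𝓝[{p | S.π p = b}] e, ∀ᶠ w in 𝓝[Mset t] ((b, 0, 0) : Amb m),
      w.1 = b → ∃ z ∈ V, Emap S.π x y z = w := by
    intro V hV
    rw [← hE, ← h.nhds e he, Filter.eventually_map]
    rw [mem_nhdsWithin_iff_exists_mem_nhds_inter] at hV
    obtain ⟨W, hW, hWV⟩ := hV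
    filter_upwards [hW] with z hz hzb
    exact ⟨z, hWV ⟨hz, hzb⟩, rfl⟩
  refine ⟨h.hol_u he, h.hol_v he, hx, hy, ?_, ?_, ?_, ?_⟩
  · rw [eventually_nhdsWithin_iff]
    filter_upwards [h.isOpen.mem_nhds he] with z hz hzb
    rw [h.eqn z hz, hzb, ht]
  · intro g hg
    obtain ⟨F, hF, eF⟩ := (h.hol e he g).1 hg
    rw [hE] at hF
    have hi1 : AnalyticAt ℂ (fun s : ℂ => ((b, s, 0) : Amb m)) 0 :=
      analyticAt_const.prod (analyticAt_id.prod analyticAt_const)
    have hi2 : AnalyticAt ℂ (fun s : ℂ => ((b, 0, s) : Amb m)) 0 :=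
      analyticAt_const.prod (analyticAt_const.prod analyticAt_id)
    have hF1 : AnalyticAt ℂ (fun s : ℂ => F (b, s, 0)) 0 := AnalyticAt.fun_comp (g := F) hF hi1
    have hF2 : AnalyticAt ℂ (fun s : ℂ => F (b, 0, s)) 0 := AnalyticAt.fun_comp (g := F) hF hi2
    obtain ⟨G, hG, eG⟩ := hadamard hF1
    obtain ⟨H, hH, eH⟩ := hadamard hF2
    refine ⟨G, H, hG, hH, ?_⟩
    have e0 : g e = F (b, 0, 0) := by rw [eF.eq_of_nhds, Function.comp_apply, hE]
    have h1 : ∀ᶠ z in 𝓝 e, z ∈ U := h.isOpen.mem_nhds he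
    refine eventually_nhdsWithin_iff.2 ?_
    filter_upwards [eF, h1] with z hz hzU hzb
    have hxy : x z * y z = 0 := by rw [h.eqn z hzU, hzb, ht]
    have hzE : Emap S.π x y z = (b, x z, y z) := by rw [Emap, show S.π z = b from hzb]
    rw [hz, Function.comp_apply, hzE, e0]
    rcases mul_eq_zero.1 hxy with h2 | h2
    · have := eH (y z)
      simp only [sub_zero] at this
      rw [h2, zero_mul, zero_add, this]
    · have := eG (x z)
      simp only [sub_zero] at this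
      rw [h2, zero_mul, add_zero, this]
  · intro V hV
    have h1 : Tendsto (fun s : ℂ => ((b, s, 0) : Amb m)) (𝓝 0) (𝓝[Mset t] ((b, 0, 0) : Amb m)) := by
      refine tendsto_nhdsWithin_iff.2 ⟨?_, Eventually.of_forall fun s => ?_⟩
      · exact (continuous_const.prodMk (continuous_id.prodMk continuous_const)).tendsto' _ _ rfl
      · simp [Mset, ht]
    filter_upwards [h1.eventually (hmem V hV)] with s hs
    obtain ⟨z, hz, hzE⟩ := hs rfl
    exact ⟨z, hz, by simpa [Emap] using congrArg (fun w : Amb m => w.2.1) hzE,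
      by simpa [Emap] using congrArg (fun w : Amb m => w.2.2) hzE⟩
  · intro V hV
    have h1 : Tendsto (fun s : ℂ => ((b, 0, s) : Amb m)) (𝓝 0) (𝓝[Mset t] ((b, 0, 0) : Amb m)) := by
      refine tendsto_nhdsWithin_iff.2 ⟨?_, Eventually.of_forall fun s => ?_⟩
      · exact (continuous_const.prodMk (continuous_const.prodMk continuous_id)).tendsto' _ _ rfl
      · simp [Mset, ht]
    filter_upwards [h1.eventually (hmem V hV)] with s hs
    obtain ⟨z, hz, hzE⟩ := hs rfl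
    exact ⟨z, hz, by simpa [Emap] using congrArg (fun w : Amb m => w.2.1) hzE,
      by simpa [Emap] using congrArg (fun w : Amb m => w.2.2) hzE⟩

end Vale.Agent.P273.H949

end
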