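import Vale.Agent.P273.H949.Bubble

/-!
The absence of vector fields is inherited by modified surfaces.
-/

noncomputable section

open Set Filter Topology

namespace Vale.Agent.P273.H949

open H948

variable {m : ℕ} {S N' : Surf m} (M : Modif S N') {b : Fin m → ℂ} {P : Set S.X}
  {P' : Set M.T.X} {D : (M.T.X → ℂ) → M.T.X → ℂ}

/-- The restriction of a field to the new part. -/
def up (D : (M.T.X → ℂ) → M.T.X → ℂ) (f : N'.X → ℂ) (z : N'.X) : ℂ :=
  D (Function.extend M.ιN f 0) (M.ιN z)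

theorem πN (z : N'.X) : M.T.π (M.ιN z) = N'.π z := by
  rw [← M.πr, M.rN, M.hπ]

theorem ext_comp (f : N'.X → ℂ) : Function.extend M.ιN f 0 ∘ M.ιN = f :=
  funext fun _ => M.embN.injective.extend_apply _ _ _

theorem hol_ext {z : N'.X} {f : N'.X → ℂ} (hf : N'.hol z f) :
    M.T.hol (M.ιN z) (Function.extend M.ιN f 0) := by
  rw [M.holN, ext_comp]; exact hf

theorem map_fib (z : N'.X) : map M.ιN (𝓝[{p | N'.π p = b}] z) =
    𝓝[{p | M.T.π p = b}] (M.ιN z) := by
  have h1 : {p | N'.π p = b} = M.ιN ⁻¹' {p | M.T.π p = b} := by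
    ext w; simp only [mem_ofPred_eq, mem_preimage, πN]
  rw [h1, nhdsWithin, nhdsWithin, ← M.embN.map_nhds_eq]
  conv_rhs => rw [← map_inf_principal_preimage]

theorem isFld_up (hD : IsFld M.T b P' D) : IsFld N' b (M.ιN ⁻¹' P') (up M D) := by
  refine ⟨fun p hp f g hf hg => ⟨?_, ?_, ?_, ?_⟩, ?_, ?_⟩
  · have hp' : M.T.π (M.ιN p) = b := by rw [πN, hp]
    have e : Function.extend M.ιN (f + g) 0 =ᶠ[𝓝 (M.ιN p)]
        Function.extend M.ιN f 0 + Function.extend M.ιN g 0 := by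
      rw [← M.embN.map_nhds_eq]
      refine Filter.eventually_map.2 (Eventually.of_forall fun w => ?_)
      simp only [Pi.add_apply, M.embN.injective.extend_apply]
    rw [up, hD.congr hp' (hol_ext M (hol_add hf hg)) (hol_add (hol_ext M hf) (hol_ext M hg))
      (e.filter_mono nhdsWithin_le_nhds), hD.add hp' (hol_ext M hf) (hol_ext M hg)]
    rfl
  · have hp' : M.T.π (M.ιN p) = b := by rw [πN, hp]
    have e : Function.extend M.ιN (f * g) 0 =ᶠ[𝓝 (M.ιN p)]
        Function.extend M.ιN f 0 * Function.extend M.ιN g 0 := by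
      rw [← M.embN.map_nhds_eq]
      refine Filter.eventually_map.2 (Eventually.of_forall fun w => ?_)
      simp only [Pi.mul_apply, M.embN.injective.extend_apply]
    rw [up, hD.congr hp' (hol_ext M (hol_mul hf hg)) (hol_mul (hol_ext M hf) (hol_ext M hg))
      (e.filter_mono nhdsWithin_le_nhds), hD.mul hp' (hol_ext M hf) (hol_ext M hg),
      M.embN.injective.extend_apply, M.embN.injective.extend_apply]
    rfl
  · intro e
    have hp' : M.T.π (M.ιN p) = b := by rw [πN, hp]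
    refine hD.congr hp' (hol_ext M hf) (hol_ext M hg) ?_
    rw [← map_fib]
    refine Filter.eventually_map.2 ?_
    filter_upwards [e] with w hw
    rw [M.embN.injective.extend_apply, M.embN.injective.extend_apply, hw]
  · have hp' : M.T.π (M.ιN p) = b := by rw [πN, hp]
    obtain ⟨h, hh, e⟩ := hD.rep hp' (hol_ext M hf)
    refine ⟨h ∘ M.ιN, (M.holN _ _).1 hh, ?_⟩
    rw [← map_fib] at e
    exact Filter.eventually_map.1 e
  · intro p hp c
    have hp' : M.T.π (M.ιN p) = b := by rw [πN, hp]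
    refine hD.const hp' (hol_ext M (hol_const c)) (c := c) ?_
    rw [← map_fib]
    exact Filter.eventually_map.2
      (Eventually.of_forall fun w => M.embN.injective.extend_apply _ _ _)
  · intro p hp f hf
    exact hD.2.2 _ hp _ (hol_ext M hf)

/-- The restriction of a field to the new part, on functions of the modified surface. -/
theorem up_comp (hD : IsFld M.T b P' D) {z : N'.X} (hz : N'.π z = b) {f : M.T.X → ℂ}
    (hf : M.T.hol (M.ιN z) f) : D f (M.ιN z) = up M D (f ∘ M.ιN) z := by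
  have hz' : M.T.π (M.ιN z) = b := by rw [πN, hz]
  refine hD.congr hz' hf (hol_ext M ((M.holN _ _).1 hf)) ?_
  refine EventuallyEq.filter_mono ?_ nhdsWithin_le_nhds
  rw [← M.embN.map_nhds_eq]
  refine Filter.eventually_map.2 (Eventually.of_forall fun w => ?_)
  rw [M.embN.injective.extend_apply, Function.comp_apply]

theorem r_inj {x x' : M.T.X} (h : M.r x = M.r x') (hx : M.r x ∉ M.Z) : x = x' := by
  obtain ⟨a, rfl⟩ := M.mem_rangeA.2 hx
  rw [h] at hx
  obtain ⟨a', rfl⟩ := M.mem_rangeA.2 hx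
  rw [M.rA, M.rA] at h
  rw [M.incA_emb.injective h]

open Classical in
/-- The field on the old surface. -/
def dn (D : (M.T.X → ℂ) → M.T.X → ℂ) (f : S.X → ℂ) (p : S.X) : ℂ :=
  if h : p ∈ M.Zᶜ then D (f ∘ M.r) (M.ιA (Surf.toSub _ p h)) else 0

theorem dn_of_mem {f : S.X → ℂ} {p : S.X} (h : p ∈ M.Z) : dn M D f p = 0 :=
  dif_neg fun h' => h' h

theorem dn_r {f : S.X → ℂ} {x : M.T.X} (h : M.r x ∉ M.Z) : dn M D f (M.r x) = D (f ∘ M.r) x := by
  rw [dn, dif_pos (show M.r x ∈ M.Zᶜ from h)]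
  congr 1
  exact r_inj M rfl h

theorem exists_r {p : S.X} (h : p ∉ M.Z) : ∃ x, M.r x = p ∧
    map M.r (𝓝[{p | M.T.π p = b}] x) = 𝓝[{p | S.π p = b}] p := by
  set a : M.A.X := Surf.toSub _ p h with ha
  refine ⟨M.ιA a, rfl, ?_⟩
  have h1 : {p | M.T.π p = b} = M.r ⁻¹' {p | S.π p = b} := by
    ext w; simp only [mem_ofPred_eq, mem_preimage, M.πr]
  have h2 : map M.r (𝓝 (M.ιA a)) = 𝓝 p := by
    rw [← M.embA.map_nhds_eq, Filter.map_map]
    exact M.incA_emb.map_nhds_eq a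
  rw [h1, nhdsWithin, map_inf_principal_preimage, h2, nhdsWithin]

theorem isFld_dn (hD : IsFld M.T b P' D) (hP : ∀ p ∈ P, ∃ p' ∈ P', M.r p' = p)
    (hZ : ∀ p ∈ M.Z, S.π p = b → ∀ f, S.hol p f →
      ∃ h, S.hol p h ∧ dn M D f =ᶠ[𝓝[{p | S.π p = b}] p] h) : IsFld S b P (dn M D) := by
  refine ⟨fun p hp f g hf hg => ?_, ?_, ?_⟩
  · by_cases hpZ : p ∈ M.Z
    · refine ⟨?_, ?_, fun _ => ?_, hZ p hpZ hp f hf⟩
      · simp only [dn_of_mem M hpZ, add_zero]
      · simp only [dn_of_mem M hpZ, mul_zero, add_zero]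
      · simp only [dn_of_mem M hpZ]
    · obtain ⟨x, rfl, hx⟩ := exists_r M (b := b) hpZ
      have hx' : M.T.π x = b := by rw [← M.πr, hp]
      have hf' := M.pull x f hf
      have hg' := M.pull x g hg
      refine ⟨?_, ?_, fun e => ?_, ?_⟩
      · rw [dn_r M hpZ, dn_r M hpZ, dn_r M hpZ]; exact hD.add hx' hf' hg'
      · rw [dn_r M hpZ, dn_r M hpZ, dn_r M hpZ]; exact hD.mul hx' hf' hg'
      · rw [dn_r M hpZ, dn_r M hpZ]
        refine hD.congr hx' hf' hg' ?_
        rw [← hx] at e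
        exact Filter.eventually_map.1 e
      · obtain ⟨h, hh, e⟩ := hD.rep hx' hf'
        obtain ⟨a, rfl⟩ := M.mem_rangeA.2 hpZ
        rw [M.holA, M.holA'] at hh
        obtain ⟨g', hg', e'⟩ := hh
        refine ⟨g', hg', ?_⟩
        rw [← hx]
        refine Filter.eventually_map.2 ?_
        have e2 : h =ᶠ[𝓝 (M.ιA a)] g' ∘ M.r := by
          rw [← M.embA.map_nhds_eq]
          exact Filter.eventually_map.2 e'
        have e3 : ∀ᶠ w in 𝓝 (M.ιA a), M.r w ∉ M.Z :=
          M.cont_r.continuousAt.eventually_mem (M.closed.isOpen_compl.mem_nhds hpZ)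
        filter_upwards [e, e2.filter_mono nhdsWithin_le_nhds, e3.filter_mono nhdsWithin_le_nhds]
          with w h1 h2 h3
        rw [dn_r M h3, h1, h2, Function.comp_apply]
  · intro p hp c
    by_cases hpZ : p ∈ M.Z
    · exact dn_of_mem M hpZ
    · obtain ⟨x, rfl, hx⟩ := exists_r M (b := b) hpZ
      have hx' : M.T.π x = b := by rw [← M.πr, hp]
      rw [dn_r M hpZ]
      exact hD.2.1 x hx' c
  · intro p hpP f hf
    by_cases hpZ : p ∈ M.Z
    · exact dn_of_mem M hpZ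
    · obtain ⟨x, hxP, rfl⟩ := hP p hpP
      rw [dn_r M hpZ]
      exact hD.2.2 x hxP _ (M.pull x f hf)

/-- **Descent.** If a field vanishes over the centre and descends, it vanishes. -/
theorem zero_of_dn (hD : IsFld M.T b P' D) (hP : ∀ p ∈ P, ∃ p' ∈ P', M.r p' = p)
    (hZ : ∀ p ∈ M.Z, S.π p = b → ∀ f, S.hol p f →
      ∃ h, S.hol p h ∧ dn M D f =ᶠ[𝓝[{p | S.π p = b}] p] h) (hNo : NoFld S b P)
    {x : M.T.X} (hx : M.T.π x = b) (hxZ : M.r x ∉ M.Z) {f : M.T.X → ℂ} (hf : M.T.hol x f) :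
    D f x = 0 := by
  have hp : S.π (M.r x) = b := by rw [M.πr, hx]
  obtain ⟨a, rfl⟩ := M.mem_rangeA.2 hxZ
  have hf' := hf
  rw [M.holA, M.holA'] at hf'
  obtain ⟨g', hg', e'⟩ := hf'
  have e2 : f =ᶠ[𝓝 (M.ιA a)] g' ∘ M.r := by
    rw [← M.embA.map_nhds_eq]
    exact Filter.eventually_map.2 e'
  have h1 : dn M D g' (M.r (M.ιA a)) = 0 := hNo _ (isFld_dn M hD hP hZ) _ hp g' hg'
  rw [dn_r M hxZ] at h1
  rw [hD.congr hx hf (M.pull _ g' hg') (e2.filter_mono nhdsWithin_le_nhds), h1]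

/-- **Fibres that do not meet the centre.** -/
theorem inh_free (hfree : ∀ p ∈ M.Z, S.π p ≠ b) (hP : ∀ p ∈ P, ∃ p' ∈ P', M.r p' = p)
    (hNo : NoFld S b P) : NoFld M.T b P' := by
  intro D hD x hx f hf
  refine zero_of_dn M hD hP (fun p hp h => absurd h (hfree p hp)) hNo hx ?_ hf
  intro h
  exact hfree _ h (by rw [M.πr, hx])

/-- More marked points. -/
theorem NoFld.mono {P₁ P₂ : Set S.X} (h : NoFld S b P₁) (hP : P₁ ⊆ P₂) : NoFld S b P₂ :=
  fun D hD => h D ⟨hD.1, hD.2.1, fun p hp => hD.2.2 p (hP hp)⟩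

end Vale.Agent.P273.H949

end
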