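import Vale.Agent.P273.H949.Inh

/-!
Insertion of a marked point near a marked point or in a node: the fibre over a point of the centre.
-/

noncomputable section

open Set Filter Topology

namespace Vale.Agent.P273.H949

open H948

variable {m : ℕ} {S N' : Surf m} (M : Modif S N') {b : Fin m → ℂ} {P : Set S.X}
  {P' : Set M.T.X}

/-- The inserted line over the point `p₀` of the centre: its parametrisation `ε`, the coordinate `α`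
and the inverse coordinate `γ`. -/
structure IsLine (b : Fin m → ℂ) (p₀ : S.X) (ε : OnePoint ℂ → N'.X) (α γ : N'.X → ℂ) : Prop where
  hp : S.π p₀ = b
  mem : p₀ ∈ M.Z
  only : ∀ p ∈ M.Z, S.π p = b → p = p₀
  cont : Continuous ε
  ρε : ∀ a, M.ρ (ε a) = p₀
  surj : ∀ z, M.ρ z = p₀ → ∃ a, ε a = z
  holα : ∀ a : ℂ, N'.hol (ε a) α
  α_ε : ∀ a : ℂ, α (ε a) = a
  holγ : ∀ a : ℂ, a ≠ 0 → N'.hol (ε a) γ
  holγ' : N'.hol (ε OnePoint.infty) γ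
  αγ : ∀ a : ℂ, a ≠ 0 → ∀ᶠ z in 𝓝 (ε a), α z * γ z = 1
  coord : ∀ a : ℂ, a ≠ 0 → FCoord N' b (ε a) α

variable {M} {p₀ : S.X} {ε : OnePoint ℂ → N'.X} {α γ : N'.X → ℂ}

theorem IsLine.πε (h : IsLine M b p₀ ε α γ) (a : OnePoint ℂ) : N'.π (ε a) = b := by
  rw [← M.hπ, h.ρε, h.hp]

theorem IsLine.tendsto_ρ (h : IsLine M b p₀ ε α γ) (a : OnePoint ℂ) :
    Tendsto M.ρ (𝓝[{p | N'.π p = b}] (ε a)) (𝓝[{p | S.π p = b}] p₀) := by
  refine tendsto_nhdsWithin_iff.2 ⟨?_, ?_⟩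
  · have := M.cont.tendsto (ε a)
    rw [h.ρε] at this
    exact this.mono_left nhdsWithin_le_nhds
  · filter_upwards [self_mem_nhdsWithin] with z hz
    exact (M.hπ z).trans hz

/-- One branch at a node of the inserted line. -/
theorem IsLine.branch (h : IsLine M b p₀ ε α γ) {a : OnePoint ℂ} {x y : N'.X → ℂ}
    (hn : FNode N' b (ε a) x y) {u v : S.X → ℂ} (hu : S.hol p₀ u) (hu0 : u p₀ = 0)
    (hinj : ∃ W ∈ 𝓝[{p | S.π p = b}] p₀, ∀ p ∈ W, ∀ q ∈ W, u p = u q → v p = v q → p = q)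
    (hx : ∀ᶠ z in 𝓝[{p | N'.π p = b}] (ε a), x z = u (M.ρ z))
    (hv : ∀ᶠ z in 𝓝[{p | N'.π p = b}] (ε a), v (M.ρ z) = 0) {g k : N'.X → ℂ}
    (hg : N'.hol (ε a) g) (hg0 : g (ε a) = 0) (hk : k =ᶠ[𝓝[{p | N'.π p = b}] (ε a)] g) :
    ∃ G : ℂ → ℂ, AnalyticAt ℂ G 0 ∧ ∀ᶠ p in 𝓝[{p | S.π p = b}] p₀, v p = 0 →
      ∃ z, M.ρ z = p ∧ k z = u p * G (u p) := by
  obtain ⟨G, H, hG, hH, e⟩ := hn.rep g hg
  obtain ⟨W, hW, hWinj⟩ := hinj
  refine ⟨G, hG, ?_⟩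
  have hV := hn.bx _ (((hx.and hv).and (hk.and e)).and ((h.tendsto_ρ a).eventually hW))
  have hut : Tendsto u (𝓝[{p | S.π p = b}] p₀) (𝓝 0) := by
    have := (hol_cont hu).tendsto
    rw [hu0] at this
    exact this.mono_left nhdsWithin_le_nhds
  filter_upwards [hut.eventually hV, hW] with p hp hpW hvp
  obtain ⟨z, ⟨⟨⟨h1, h2⟩, h3, h4⟩, h5⟩, h6, h7⟩ := hp
  refine ⟨z, hWinj _ h5 _ hpW ?_ ?_, ?_⟩
  · rw [← h1, h6]
  · rw [h2, hvp]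
  · rw [h3, h4, hg0, h6, h7]; ring

/-- The core of both inheritance theorems. -/
theorem IsLine.inh (h : IsLine M b p₀ ε α γ) {x y : N'.X → ℂ}
    (hi : FNode N' b (ε OnePoint.infty) x y) (h1 : M.ιN (ε (1 : ℂ)) ∈ P')
    (h0 : ∀ D, IsFld N' b (M.ιN ⁻¹' P') D → ∀ f, N'.hol (ε (0 : ℂ)) f → D f (ε (0 : ℂ)) = 0)
    (hd : ∀ D, IsFld N' b (M.ιN ⁻¹' P') D →
      (∀ z, M.ρ z = p₀ → ∀ f, N'.hol z f → D f z = 0) → ∀ f, S.hol p₀ f →
      ∃ k, S.hol p₀ k ∧ k p₀ = 0 ∧ ∀ᶠ p in 𝓝[{p | S.π p = b}] p₀,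
        ∃ z, M.ρ z = p ∧ D (f ∘ M.ρ) z = k p)
    (hP : ∀ p ∈ P, ∃ p' ∈ P', M.r p' = p) (hNo : NoFld S b P) : NoFld M.T b P' := by
  intro D hD x hx f hf
  have hU := isFld_up M hD
  -- zero on the line
  have hline : ∀ z, M.ρ z = p₀ → ∀ f, N'.hol z f → up M D f z = 0 := by
    intro z hz f hf
    obtain ⟨a, rfl⟩ := h.surj z hz
    induction a using OnePoint.rec with
    | infty => exact hU.node (h.πε _) hi hf
    | coe a =>
      by_cases ha : a = 0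
      · subst ha; exact h0 _ hU f hf
      · exact bubble hU h.cont h.πε h.holα h.α_ε h.holγ h.holγ' h.αγ h.coord
          (h0 _ hU _ (h.holα 0)) (hU.2.2 _ h1 _ (h.holα 1)) (hU.node (h.πε _) hi h.holγ') a ha f hf
  have hpull : ∀ (f : S.X → ℂ) (z : N'.X), N'.π z = b → S.hol (M.ρ z) f →
      D (f ∘ M.r) (M.ιN z) = up M D (f ∘ M.ρ) z := by
    intro f z hz hf
    have e : (f ∘ M.r) ∘ M.ιN = f ∘ M.ρ := by
      funext w; simp only [Function.comp_apply, M.rN]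
    rw [up_comp M hD hz (M.pull _ f (by rw [M.rN]; exact hf)), e]
  by_cases hxZ : M.r x ∈ M.Z
  · have hp : M.r x = p₀ := h.only _ hxZ (by rw [M.πr, hx])
    obtain ⟨z, rfl⟩ := M.mem_rangeN.2 (M.sub hxZ)
    rw [M.rN] at hp
    rw [up_comp M hD (by rw [← πN M, hx]) hf]
    exact hline z hp _ ((M.holN _ _).1 hf)
  · refine zero_of_dn M hD hP (fun p hpZ hp f hf => ?_) hNo hx hxZ hf
    obtain rfl := h.only p hpZ hp
    obtain ⟨k, hk, hk0, ek⟩ := hd _ hU hline f hf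
    have hnear : ∀ᶠ q in 𝓝 p, S.hol q f := by
      obtain ⟨U, u, v, t, hxU, hU⟩ := S.model p
      obtain ⟨F, hF, eF⟩ := (hU.hol p hxU _).1 hf
      have h1 : ∀ᶠ z in 𝓝 p, AnalyticAt ℂ F (Emap S.π u v z) :=
        (hU.cont hxU).eventually hF.eventually_analyticAt
      filter_upwards [h1, eF.eventuallyEq_nhds, hU.isOpen.mem_nhds hxU] with z h2 h3 h4
      exact (hU.hol z h4 _).2 ⟨F, h2, h3⟩
    refine ⟨k, hk, ?_⟩
    filter_upwards [ek, hnear.filter_mono nhdsWithin_le_nhds, self_mem_nhdsWithin]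
      with q hq hqf hqb
    by_cases hqZ : q ∈ M.Z
    · obtain rfl := h.only q hqZ hqb
      rw [dn_of_mem M hqZ, hk0]
    · obtain ⟨z, rfl, hz⟩ := hq
      have e : dn M D f (M.r (M.ιN z)) = D (f ∘ M.r) (M.ιN z) :=
        dn_r M (by rw [M.rN]; exact hqZ)
      rw [M.rN] at e
      rw [e, hpull f z (by rw [← M.hπ]; exact hqb) hqf, hz]

/-- **A marked point inserted in a node (the fibre with two new nodes).** -/
theorem IsLine.inh_node (h : IsLine M b p₀ ε α γ) {u v : S.X → ℂ} (hu : S.hol p₀ u)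
    (hv : S.hol p₀ v) (hu0 : u p₀ = 0) (hv0 : v p₀ = 0)
    (huv : ∀ᶠ p in 𝓝[{p | S.π p = b}] p₀, u p * v p = 0)
    (hinj : ∃ W ∈ 𝓝[{p | S.π p = b}] p₀, ∀ p ∈ W, ∀ q ∈ W, u p = u q → v p = v q → p = q)
    {x y : N'.X → ℂ} (hi : FNode N' b (ε OnePoint.infty) x γ)
    (hx : ∀ᶠ z in 𝓝[{p | N'.π p = b}] (ε OnePoint.infty), x z = u (M.ρ z))
    (hx' : ∀ᶠ z in 𝓝[{p | N'.π p = b}] (ε OnePoint.infty), v (M.ρ z) = 0)
    (ho : FNode N' b (ε (0 : ℂ)) α y)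
    (hy : ∀ᶠ z in 𝓝[{p | N'.π p = b}] (ε (0 : ℂ)), y z = v (M.ρ z))
    (hy' : ∀ᶠ z in 𝓝[{p | N'.π p = b}] (ε (0 : ℂ)), u (M.ρ z) = 0)
    (h1 : M.ιN (ε (1 : ℂ)) ∈ P')
    (hP : ∀ p ∈ P, ∃ p' ∈ P', M.r p' = p) (hNo : NoFld S b P) : NoFld M.T b P' := by
  refine h.inh hi h1 (fun D hD f hf => hD.node (h.πε _) ho hf) (fun D hD hl f hf => ?_) hP hNo
  have hfi : N'.hol (ε OnePoint.infty) (f ∘ M.ρ) := M.hpull _ _ (by rw [h.ρε]; exact hf)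
  have hfo : N'.hol (ε (0 : ℂ)) (f ∘ M.ρ) := M.hpull _ _ (by rw [h.ρε]; exact hf)
  obtain ⟨g, hg, eg⟩ := hD.rep (h.πε _) hfi
  obtain ⟨g', hg', eg'⟩ := hD.rep (h.πε _) hfo
  have hg0 : g (ε OnePoint.infty) = 0 := by
    rw [← eg.eq_of_nhdsWithin (h.πε _)]; exact hl _ (h.ρε _) _ hfi
  have hg0' : g' (ε (0 : ℂ)) = 0 := by
    rw [← eg'.eq_of_nhdsWithin (h.πε _)]; exact hl _ (h.ρε _) _ hfo
  obtain ⟨G, hG, eG⟩ := h.branch hi hu hu0 hinj hx hx' hg hg0 eg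
  have hinj' : ∃ W ∈ 𝓝[{p | S.π p = b}] p₀, ∀ p ∈ W, ∀ q ∈ W, v p = v q → u p = u q → p = q := by
    obtain ⟨W, hW, hW'⟩ := hinj
    exact ⟨W, hW, fun p hp q hq h1 h2 => hW' p hp q hq h2 h1⟩
  obtain ⟨H, hH, eH⟩ := h.branch ho.symm hv hv0 hinj' hy hy' hg' hg0' eg'
  refine ⟨u * (G ∘ u) + v * (H ∘ v), hol_add (hol_mul hu (hol_comp hu (by rwa [hu0])))
    (hol_mul hv (hol_comp hv (by rwa [hv0]))), ?_, ?_⟩
  · simp only [Pi.add_apply, Pi.mul_apply, hu0, hv0, zero_mul, add_zero]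
  · filter_upwards [eG, eH, huv] with p h2 h3 h4
    rcases mul_eq_zero.1 h4 with h5 | h5
    · obtain ⟨z, hz, hz'⟩ := h3 h5
      refine ⟨z, hz, ?_⟩
      rw [hz']
      simp only [Pi.add_apply, Pi.mul_apply, h5, zero_mul, zero_add, Function.comp_apply]
    · obtain ⟨z, hz, hz'⟩ := h2 h5
      refine ⟨z, hz, ?_⟩
      rw [hz']
      simp only [Pi.add_apply, Pi.mul_apply, h5, zero_mul, add_zero, Function.comp_apply]

/-- **A marked point inserted near a marked point (the fibre with a new node).** -/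
theorem IsLine.inh_mark (h : IsLine M b p₀ ε α γ) {u : S.X → ℂ} (hu : S.hol p₀ u)
    (hu0 : u p₀ = 0)
    (hinj : ∃ W ∈ 𝓝[{p | S.π p = b}] p₀, ∀ p ∈ W, ∀ q ∈ W, u p = u q → p = q)
    {x : N'.X → ℂ} (hi : FNode N' b (ε OnePoint.infty) x γ)
    (hx : ∀ᶠ z in 𝓝[{p | N'.π p = b}] (ε OnePoint.infty), x z = u (M.ρ z))
    (h0 : M.ιN (ε (0 : ℂ)) ∈ P') (h1 : M.ιN (ε (1 : ℂ)) ∈ P')
    (hP : ∀ p ∈ P, ∃ p' ∈ P', M.r p' = p) (hNo : NoFld S b P) : NoFld M.T b P' := by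
  refine h.inh hi h1 (fun D hD f hf => hD.2.2 _ h0 _ hf) (fun D hD hl f hf => ?_) hP hNo
  have hfi : N'.hol (ε OnePoint.infty) (f ∘ M.ρ) := M.hpull _ _ (by rw [h.ρε]; exact hf)
  obtain ⟨g, hg, eg⟩ := hD.rep (h.πε _) hfi
  have hg0 : g (ε OnePoint.infty) = 0 := by
    rw [← eg.eq_of_nhdsWithin (h.πε _)]; exact hl _ (h.ρε _) _ hfi
  obtain ⟨W, hW, hW'⟩ := hinj
  obtain ⟨G, hG, eG⟩ := h.branch (v := fun _ => 0) hi hu hu0
    ⟨W, hW, fun p hp q hq h1 _ => hW' p hp q hq h1⟩ hx (Eventually.of_forall fun _ => rfl) hg hg0 eg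
  refine ⟨u * (G ∘ u), hol_mul hu (hol_comp hu (by rwa [hu0])), ?_, ?_⟩
  · simp only [Pi.mul_apply, hu0, zero_mul]
  · filter_upwards [eG] with p h2
    exact h2 rfl

end Vale.Agent.P273.H949

end
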