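import Vale.Agent.P273.H949.Inh
import Vale.Agent.P273.H948.State

/-!
Absence of vector fields: open subsurfaces, the conversion to families, and the states of the
insertion process.
-/

noncomputable section

open Set Filter Topology

namespace Vale.Agent.P273.H949

open H948

variable {m : ℕ}

section emb

variable {S T : Surf m} {b : Fin m → ℂ} {P : Set S.X} {P' : Set T.X}

open Classical in
/-- Extension of a field from an open subsurface. -/
def push (ι : T.X → S.X) (D : (T.X → ℂ) → T.X → ℂ) (f : S.X → ℂ) (p : S.X) : ℂ :=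
  if h : ∃ x, ι x = p then D (f ∘ ι) h.choose else 0

theorem push_apply {ι : T.X → S.X} (hι : Function.Injective ι) (D : (T.X → ℂ) → T.X → ℂ)
    (f : S.X → ℂ) (x : T.X) : push ι D f (ι x) = D (f ∘ ι) x := by
  have h : ∃ y, ι y = ι x := ⟨x, rfl⟩
  rw [push, dif_pos h, hι h.choose_spec]

/-- The absence of fields passes to an open subsurface that contains the fibre. -/
theorem NoFld.emb {ι : T.X → S.X} (hι : IsOpenEmbedding ι) (hπ : ∀ x, S.π (ι x) = T.π x)
    (hh : ∀ x (g : S.X → ℂ), T.hol x (g ∘ ι) ↔ S.hol (ι x) g)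
    (hr : ∀ p, S.π p = b → ∃ x, ι x = p) (hP : ∀ p ∈ P, ∀ x, ι x = p → x ∈ P')
    (h : NoFld S b P) : NoFld T b P' := by
  have hfib : ∀ x, map ι (𝓝[{p | T.π p = b}] x) = 𝓝[{p | S.π p = b}] (ι x) := by
    intro x
    have h1 : {p | T.π p = b} = ι ⁻¹' {p | S.π p = b} := by
      ext w; simp only [mem_ofPred_eq, mem_preimage, hπ]
    rw [h1, nhdsWithin, map_inf_principal_preimage, hι.map_nhds_eq, nhdsWithin]
  intro D hD x hx f hf
  have key : IsFld S b P (push ι D) := by
    refine ⟨fun p hp f g hf hg => ?_, ?_, ?_⟩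
    · obtain ⟨y, rfl⟩ := hr p hp
      rw [hπ] at hp
      rw [← hh] at hf hg
      refine ⟨?_, ?_, fun e => ?_, ?_⟩
      · rw [push_apply hι.injective, push_apply hι.injective, push_apply hι.injective]
        exact hD.add hp hf hg
      · rw [push_apply hι.injective, push_apply hι.injective, push_apply hι.injective]
        exact hD.mul hp hf hg
      · rw [push_apply hι.injective, push_apply hι.injective]
        refine hD.congr hp hf hg ?_
        rw [← hfib] at e
        exact Filter.eventually_map.1 e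
      · obtain ⟨k, hk, e⟩ := hD.rep hp hf
        refine ⟨Function.extend ι k 0, ?_, ?_⟩
        · rw [← hh]
          have e2 : Function.extend ι k 0 ∘ ι = k :=
            funext fun _ => hι.injective.extend_apply _ _ _
          rw [e2]; exact hk
        · rw [← hfib]
          refine Filter.eventually_map.2 ?_
          filter_upwards [e] with w hw
          rw [push_apply hι.injective, hι.injective.extend_apply]
          exact hw
    · intro p hp c
      obtain ⟨y, rfl⟩ := hr p hp
      rw [hπ] at hp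
      rw [push_apply hι.injective]
      exact hD.2.1 y hp c
    · intro p hpP f hf
      by_cases hy : ∃ y, ι y = p
      · obtain ⟨y, rfl⟩ := hy
        rw [push_apply hι.injective]
        exact hD.2.2 y (hP _ hpP y rfl) _ ((hh _ _).2 hf)
      · exact dif_neg hy
  have e2 : Function.extend ι f 0 ∘ ι = f := funext fun _ => hι.injective.extend_apply _ _ _
  have h1 := h _ key (ι x) (by rw [hπ]; exact hx) (Function.extend ι f 0)
    ((hh _ _).1 (by rw [e2]; exact hf))
  rw [push_apply hι.injective, e2] at h1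
  exact h1

end emb

/-- Restriction to a smaller base. -/
theorem NoFld.shrink {F : PFam m} {B' : Set (Fin m → ℂ)} {hB' : IsOpen B'} {hB : B' ⊆ F.B}
    {b : Fin m → ℂ} (hb : b ∈ B') {P : Set F.S.X} {P' : Set (F.shrink B' hB' hB).S.X}
    (hP : ∀ x : (F.shrink B' hB' hB).S.X, F.inc x ∈ P → x ∈ P') (h : NoFld F.S b P) :
    NoFld (F.shrink B' hB' hB).S b P' := by
  refine h.emb (ι := F.inc) PFam.inc_emb (fun x => PFam.inc_π x)
    (fun x g => PFam.inc_hol_comp x g) (fun p hp => PFam.exists_inc (by rw [hp]; exact hb)) ?_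
  rintro p hp x rfl
  exact hP x hp

/-- The family with marked points given by a surface and positions. -/
def toFam (F : PFam m) {L : Type} (s : L → (Fin m → ℂ) → F.S.X) : H183.Fam L m where
  B := F.B
  X := F.S.X
  π := F.S.π
  hol f p := F.S.hol p f
  s := s

/-- Fields on the family. -/
theorem isField_toFam {F : PFam m} {L : Type} {s : L → (Fin m → ℂ) → F.S.X} {b : Fin m → ℂ}
    {D : (F.S.X → ℂ) → F.S.X → ℂ} :
    (toFam F s).IsField b D ↔ IsFld F.S b {p | ∃ i, s i b = p} D := by
  constructor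
  · rintro ⟨h1, h2, h3⟩
    refine ⟨h1, h2, ?_⟩
    rintro p ⟨i, rfl⟩ f hf
    exact h3 i f hf
  · rintro ⟨h1, h2, h3⟩
    exact ⟨h1, h2, fun i f hf => h3 _ ⟨i, rfl⟩ f hf⟩

variable {X₀ : Surf m} {L : Type} {Q : L → (Fin m → ℂ) → X₀.X} {A : Set L}

/-- No fibre of the state has a vector field vanishing at the marked points. -/
def QStab (σ : State X₀ Q A) : Prop := ∀ b ∈ σ.F.B, NoFld σ.F.S b {p | ∃ i ∈ A, σ.s i b = p}

/-- The move `shrink`. -/
theorem QStab.shrink {σ : State X₀ Q A} (h : QStab σ) (B' : Set (Fin m → ℂ)) (hB' : IsOpen B')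
    (hB : B' ⊆ σ.F.B) (x₀ : (σ.F.shrink B' hB' hB).S.X) : QStab (σ.shrink B' hB' hB x₀) := by
  intro b hb
  have hb : b ∈ B' := hb
  refine (h b (hB hb)).shrink (hB' := hB') (hB := hB) hb ?_
  rintro x ⟨i, hi, e⟩
  refine ⟨i, hi, ?_⟩
  refine PFam.inc_emb.injective ?_
  change σ.F.inc (σ.F.rsec x₀ (σ.s i) b) = σ.F.inc x
  rw [PFam.inc_rsec (σ.sec i) hb, e]

/-- The move `add` (M1). -/
theorem QStab.add {σ : State X₀ Q A} (h : QStab σ) (j : L)
    (hs : ∀ b ∈ σ.F.B, σ.F.S.SmoothAt (σ.s j b)) (hd : ∀ b ∈ σ.F.B, ∀ i ∈ A, σ.s i b ≠ σ.s j b) :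
    QStab (σ.add j hs hd) := by
  intro b hb
  refine (h b hb).mono ?_
  rintro p ⟨i, hi, e⟩
  exact ⟨i, mem_insert_of_mem _ hi, e⟩

/-- The initial state. -/
theorem QStab.init {F : PFam m} {P : L → (Fin m → ℂ) → F.S.X} {hP : ∀ j, IsSec F.S F.B (P j)}
    (h : ∀ b ∈ F.B, NoFld F.S b ∅) : QStab (State.init F P hP) := by
  intro b hb
  exact (h b hb).mono (empty_subset _)

end Vale.Agent.P273.H949

end
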